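import Vale.Agent.P202.RingSide.Growth

/-!
# P202 RingSide: complete local rings of characteristic `p`

Coefficient fields, evaluation of power series, module finiteness over power series rings,
finiteness of Frobenius, completeness of finite local extensions.
-/

noncomputable section

namespace Vale.Agent.P202

open IsLocalRing

section Adic

variable {R : Type*} [CommRing R] {I : Ideal R}
  {M N : Type*} [AddCommGroup M] [Module R M] [AddCommGroup N] [Module R N]

/-- A quotient of a precomplete module is precomplete. -/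
theorem isPrecomplete_of_surjective [IsPrecomplete I M] (f : M →ₗ[R] N)
    (hf : Function.Surjective f) : IsPrecomplete I N := by
  refine ⟨fun u hu => ?_⟩
  have hlift : ∀ n, ∀ y ∈ (I ^ n • ⊤ : Submodule R N),
      ∃ z ∈ (I ^ n • ⊤ : Submodule R M), f z = y := by
    intro n y hy
    have h : Submodule.map f (I ^ n • ⊤ : Submodule R M) = I ^ n • ⊤ := by
      rw [Submodule.map_smul'', Submodule.map_top, LinearMap.range_eq_top.2 hf]
    rw [← h] at hy
    exact Submodule.mem_map.1 hy
  have hd : ∀ n, ∃ z ∈ (I ^ n • ⊤ : Submodule R M), f z = u (n + 1) - u n := fun n => by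
    refine hlift n _ ?_
    have := SModEq.sub_mem.1 (hu n.le_succ).symm
    exact this
  choose z hz hfz using hd
  obtain ⟨w, hw⟩ := hf (u 0)
  let v : ℕ → M := fun n => w + ∑ i ∈ Finset.range n, z i
  have hfv : ∀ n, f (v n) = u n := fun n => by
    simp only [v, map_add, map_sum, hfz, hw, Finset.sum_range_sub u n]
    abel
  have hv : ∀ {m n}, m ≤ n → v m ≡ v n [SMOD (I ^ m • ⊤ : Submodule R M)] := by
    intro m n hmn
    rw [SModEq.sub_mem]
    have h : v n - v m = ∑ i ∈ Finset.Ico m n, z i := by
      rw [Finset.sum_Ico_eq_sub _ hmn]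
      simp [v]
    rw [← Submodule.neg_mem_iff, neg_sub, h]
    exact Submodule.sum_mem _ fun i hi =>
      Submodule.smul_mono_left (Ideal.pow_le_pow_right (Finset.mem_Ico.1 hi).1) (hz i)
  obtain ⟨L, hL⟩ := IsPrecomplete.prec' v hv
  refine ⟨f L, fun n => ?_⟩
  rw [SModEq.sub_mem, ← hfv n, ← map_sub]
  have h := Submodule.mem_map_of_mem (f := f) (SModEq.sub_mem.1 (hL n))
  rw [Submodule.map_smul''] at h
  exact Submodule.smul_mono le_rfl le_top h

/-- A finite power of a precomplete ring is precomplete. -/
theorem isPrecomplete_pi [IsPrecomplete I R] (ι : Type*) [Fintype ι] [DecidableEq ι] :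
    IsPrecomplete I (ι → R) := by
  refine ⟨fun u hu => ?_⟩
  have hproj : ∀ n i (y : ι → R), y ∈ (I ^ n • ⊤ : Submodule R (ι → R)) →
      y i ∈ (I ^ n • ⊤ : Submodule R R) := by
    intro n i y hy
    have h := Submodule.mem_map_of_mem (f := LinearMap.proj (R := R) (φ := fun _ : ι => R) i) hy
    rw [Submodule.map_smul''] at h
    exact Submodule.smul_mono le_rfl le_top h
  have hi : ∀ i, ∃ L : R, ∀ n, u n i ≡ L [SMOD (I ^ n • ⊤ : Submodule R R)] := fun i =>
    IsPrecomplete.prec' (fun n => u n i) fun {m n} hmn => by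
      rw [SModEq.sub_mem]
      exact hproj m i _ (SModEq.sub_mem.1 (hu hmn))
  choose L hL using hi
  refine ⟨L, fun n => ?_⟩
  rw [SModEq.sub_mem, pi_eq_sum_univ (u n - L)]
  refine Submodule.sum_mem _ fun i _ => Submodule.smul_mem_smul ?_ Submodule.mem_top
  have h := SModEq.sub_mem.1 (hL i n)
  simpa using h

/-- Completeness only depends on the ideal up to powers. -/
theorem isAdicComplete_of_pow_le {J : Ideal R} (h1 : I ≤ J) {r : ℕ} (h2 : J ^ r ≤ I)
    [IsAdicComplete I M] : IsAdicComplete J M := by
  have hIJ : ∀ n, (I ^ n • ⊤ : Submodule R M) ≤ J ^ n • ⊤ := fun n =>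
    Submodule.smul_mono_left (Ideal.pow_right_mono h1 n)
  have hJI : ∀ n, (J ^ ((r + 1) * n) • ⊤ : Submodule R M) ≤ I ^ n • ⊤ := fun n => by
    refine Submodule.smul_mono_left ?_
    rw [pow_mul]
    exact Ideal.pow_right_mono ((Ideal.pow_le_pow_right r.le_succ).trans h2) n
  refine { haus' := ?_, prec' := ?_ }
  · exact fun x hx => IsHausdorff.haus' (I := I) x fun n => SModEq.mono (hJI n) (hx _)
  · intro u hu
    obtain ⟨L, hL⟩ := IsPrecomplete.prec' (I := I) (fun n => u ((r + 1) * n)) fun {m n} hmn =>
      SModEq.mono (hJI m) (hu (Nat.mul_le_mul_left _ hmn))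
    refine ⟨L, fun n => ?_⟩
    exact (hu (Nat.le_mul_of_pos_left n r.succ_pos)).trans (SModEq.mono (hIJ n) (hL n))

end Adic

/-- A finite module over a complete Noetherian local ring is complete. -/
theorem isAdicComplete_of_finite {R : Type*} [CommRing R] [IsNoetherianRing R] [IsLocalRing R]
    [IsAdicComplete (maximalIdeal R) R] (M : Type*) [AddCommGroup M] [Module R M]
    [Module.Finite R M] : IsAdicComplete (maximalIdeal R) M := by
  obtain ⟨n, f, hf⟩ := Module.Finite.exists_fin' R M
  have := isPrecomplete_pi (I := maximalIdeal R) (Fin n)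
  have := isPrecomplete_of_surjective (I := maximalIdeal R) f hf
  exact {}

section Finite

variable {R S : Type*} [CommRing R] [CommRing S] [IsLocalRing R] [IsLocalRing S] [Algebra R S]
  [IsLocalHom (algebraMap R S)] [Module.Finite R S]

omit [IsLocalHom (algebraMap R S)] in
/-- The extension of the maximal ideal to a finite local algebra is primary. -/
theorem exists_maximalIdeal_pow_le_map [IsNoetherianRing S] :
    ∃ r : ℕ, maximalIdeal S ^ r ≤ (maximalIdeal R).map (algebraMap R S) := by
  refine Ideal.exists_pow_le_of_le_radical_of_fg ?_ (IsNoetherian.noetherian _)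
  rw [Ideal.radical_eq_sInf]
  refine le_sInf fun P ⟨hP, hPp⟩ => ?_
  have : P.IsPrime := hPp
  have h : P.comap (algebraMap R S) = maximalIdeal R :=
    ((maximalIdeal.isMaximal R).eq_of_le (Ideal.IsPrime.comap (algebraMap R S)).ne_top
      (Ideal.map_le_iff_le_comap.1 hP)).symm
  have hmax : P.IsMaximal := Ideal.isMaximal_of_isIntegral_of_isMaximal_comap P
    (h ▸ maximalIdeal.isMaximal R)
  rw [eq_maximalIdeal hmax]

omit [Module.Finite R S] in
variable (R S) in
/-- The residue field of a local algebra over a ring with infinite residue field is infinite. -/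
theorem infinite_residueField_of_isLocalHom [Infinite (ResidueField R)] :
    Infinite (ResidueField S) :=
  Infinite.of_injective _ (ResidueField.map (algebraMap R S)).injective

variable (R S) in
/-- A finite local algebra over a complete Noetherian local ring is complete. -/
theorem isAdicComplete_maximalIdeal_of_finite [IsNoetherianRing R]
    [IsAdicComplete (maximalIdeal R) R] : IsAdicComplete (maximalIdeal S) S := by
  have : IsNoetherianRing S := isNoetherian_of_tower R inferInstance
  have := isAdicComplete_of_finite (R := R) S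
  have := (IsAdicComplete.map_algebraMap_iff (I := maximalIdeal R) (S := S) (M := S)).2 this
  obtain ⟨r, hr⟩ := exists_maximalIdeal_pow_le_map (R := R) (S := S)
  exact isAdicComplete_of_pow_le (I := (maximalIdeal R).map (algebraMap R S))
    (IsLocalRing.map_maximalIdeal_le (algebraMap R S)) hr

end Finite

section CharP

variable {R : Type*} [CommRing R] [IsLocalRing R] {p : ℕ} [Fact p.Prime] [CharP R p]

instance charP_residueField : CharP (ResidueField R) p := by
  rw [CharP.charP_iff_prime_eq_zero Fact.out, ← map_natCast (residue R), CharP.cast_eq_zero R p,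
    map_zero]

/-- The map `R / m → R / m ^ n` induced by the `n`-th iterate of Frobenius. -/
def teichmullerAux (p : ℕ) [Fact p.Prime] [CharP R p] (n : ℕ) :
    ResidueField R →+* R ⧸ maximalIdeal R ^ n :=
  Ideal.Quotient.lift (maximalIdeal R)
    ((Ideal.Quotient.mk (maximalIdeal R ^ n)).comp (iterateFrobenius R p n)) fun a ha => by
      rw [RingHom.comp_apply, iterateFrobenius_def, Ideal.Quotient.eq_zero_iff_mem]
      exact Ideal.pow_le_pow_right (Nat.lt_pow_self (Fact.out : p.Prime).one_lt).le
        (Ideal.pow_mem_pow ha _)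

theorem teichmullerAux_residue (n : ℕ) (b : R) :
    teichmullerAux p n (residue R b) =
      Ideal.Quotient.mk (maximalIdeal R ^ n) (b ^ p ^ n) := rfl

omit [IsLocalRing R] in
theorem factorPow_mk {I : Ideal R} {m n : ℕ} (h : m ≤ n) (a : R) :
    Ideal.Quotient.factorPow I h (Ideal.Quotient.mk (I ^ n) a) = Ideal.Quotient.mk (I ^ m) a := rfl

/-- A complete local ring of characteristic `p` with perfect residue field contains a coefficient
field. -/
theorem exists_coefficientField {R : Type*} [CommRing R] [IsLocalRing R] (p : ℕ) [Fact p.Prime]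
    [CharP R p] [IsAdicComplete (maximalIdeal R) R] [PerfectField (ResidueField R)] :
    ∃ σ : ResidueField R →+* R, ∀ a, residue R (σ a) = a := by
  have : PerfectRing (ResidueField R) p := PerfectField.toPerfectRing p
  let e := fun n => iterateFrobeniusEquiv (ResidueField R) p n
  let f : (n : ℕ) → ResidueField R →+* R ⧸ maximalIdeal R ^ n := fun n =>
    (teichmullerAux p n).comp ((e n).symm : ResidueField R →+* ResidueField R)
  have hf : ∀ n (b : R), f n (residue R b ^ p ^ n) =
      Ideal.Quotient.mk (maximalIdeal R ^ n) (b ^ p ^ n) := fun n b => by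
    simp only [f, RingHom.comp_apply, RingHom.coe_coe, e]
    rw [← iterateFrobeniusEquiv_def, RingEquiv.symm_apply_apply, teichmullerAux_residue]
  have hsurj : ∀ n (a : ResidueField R), ∃ b : R, residue R b ^ p ^ n = a := fun n a => by
    obtain ⟨b, hb⟩ := residue_surjective ((e n).symm a)
    exact ⟨b, by rw [hb, ← iterateFrobeniusEquiv_def, RingEquiv.apply_symm_apply]⟩
  have hcomp : ∀ {m n : ℕ} (hle : m ≤ n),
      (Ideal.Quotient.factorPow (maximalIdeal R) hle).comp (f n) = f m := by
    intro m n hle
    ext a
    obtain ⟨b, rfl⟩ := hsurj n a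
    rw [RingHom.comp_apply, hf, factorPow_mk]
    have h : p ^ n = p ^ (n - m) * p ^ m := by rw [← pow_add, Nat.sub_add_cancel hle]
    rw [h, pow_mul, pow_mul, ← map_pow (residue R), hf m (b ^ p ^ (n - m))]
  refine ⟨IsAdicComplete.liftRingHom (maximalIdeal R) f hcomp, fun a => ?_⟩
  obtain ⟨b, rfl⟩ := hsurj 1 a
  have h := IsAdicComplete.mk_liftRingHom (maximalIdeal R) f hcomp 1 (residue R b ^ p ^ 1)
  rw [hf 1 b, Ideal.Quotient.eq] at h
  rw [← map_pow (residue R), ← sub_eq_zero, ← map_sub, residue_eq_zero_iff]
  simpa using h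

end CharP

section Eval

variable {k R : Type*} [CommRing k] [CommRing R] [IsLocalRing R] {ι : Type*} [Finite ι]

omit [Finite ι] in
theorem eval₂_mem_maximalIdeal_pow (σ : k →+* R) (x : ι → R) (hx : ∀ i, x i ∈ maximalIdeal R)
    (q : MvPolynomial ι k) {n : ℕ} (hq : ∀ t : ι →₀ ℕ, t.degree < n → q.coeff t = 0) :
    MvPolynomial.eval₂Hom σ x q ∈ maximalIdeal R ^ n := by
  rw [MvPolynomial.coe_eval₂Hom, MvPolynomial.eval₂_eq]
  refine Submodule.sum_mem _ fun t ht => Ideal.mul_mem_left _ _ ?_
  have hn : n ≤ t.degree := not_lt.1 fun h => (MvPolynomial.mem_support_iff.1 ht) (hq t h)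
  refine Ideal.pow_le_pow_right hn ?_
  rw [Finsupp.degree_apply, ← Finset.prod_pow_eq_pow_sum]
  exact Ideal.prod_mem_prod fun i _ => Ideal.pow_mem_pow (hx i) _

/-- Power series in `d` variables act on a complete local ring through any coefficient map and
any choice of values in the maximal ideal. -/
theorem exists_evalHom [IsAdicComplete (maximalIdeal R) R] (σ : k →+* R) (x : ι → R)
    (hx : ∀ i, x i ∈ maximalIdeal R) :
    ∃ φ : MvPowerSeries ι k →+* R,
      (∀ c, φ (MvPowerSeries.C c) = σ c) ∧ (∀ i, φ (MvPowerSeries.X i) = x i) ∧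
      ∀ n F, φ F - MvPolynomial.eval₂Hom σ x (MvPowerSeries.truncTotal n F) ∈
        maximalIdeal R ^ n := by
  set m := maximalIdeal R
  let ev := MvPolynomial.eval₂Hom σ x
  have hev : ∀ n (q q' : MvPolynomial ι k), (∀ t : ι →₀ ℕ, t.degree < n → q.coeff t = q'.coeff t) →
      Ideal.Quotient.mk (m ^ n) (ev q) = Ideal.Quotient.mk (m ^ n) (ev q') := by
    intro n q q' h
    rw [Ideal.Quotient.eq, ← map_sub]
    exact eval₂_mem_maximalIdeal_pow σ x hx _ fun t ht => by simp [h t ht]
  let f : (n : ℕ) → MvPowerSeries ι k →+* R ⧸ m ^ n := fun n =>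
    { toFun := fun F => Ideal.Quotient.mk (m ^ n) (ev (MvPowerSeries.truncTotal n F))
      map_one' := by
        rw [← map_one ((Ideal.Quotient.mk (m ^ n)).comp ev), RingHom.comp_apply]
        refine hev n _ _ fun t ht => ?_
        rw [MvPowerSeries.coeff_truncTotal _ ht]
        classical
        simp [MvPowerSeries.coeff_one, MvPolynomial.coeff_one, eq_comm]
      map_mul' := fun F G => by
        rw [← map_mul, ← map_mul]
        refine hev n _ _ fun t ht => ?_
        rw [MvPowerSeries.coeff_truncTotal _ ht,
          MvPowerSeries.coeff_truncTotal_mul_truncTotal_eq_coeff_mul _ _ ht]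
      map_zero' := by simp
      map_add' := fun F G => by simp }
  have hf : ∀ {i n : ℕ} (hle : i ≤ n), (Ideal.Quotient.factorPow m hle).comp (f n) = f i := by
    intro i n hle
    ext F
    rw [RingHom.comp_apply]
    show Ideal.Quotient.factorPow m hle (Ideal.Quotient.mk (m ^ n) _) = Ideal.Quotient.mk (m ^ i) _
    rw [factorPow_mk]
    refine hev i _ _ fun t ht => ?_
    rw [MvPowerSeries.coeff_truncTotal _ ht, MvPowerSeries.coeff_truncTotal _ (ht.trans_le hle)]
  let φ := IsAdicComplete.liftRingHom m f hf
  have key : ∀ n F, φ F - ev (MvPowerSeries.truncTotal n F) ∈ m ^ n := fun n F => by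
    rw [← Ideal.Quotient.eq]
    exact IsAdicComplete.mk_liftRingHom m f hf n F
  have hpoly : ∀ q : MvPolynomial ι k, φ (q : MvPowerSeries ι k) = ev q := by
    intro q
    rw [← sub_eq_zero]
    refine IsHausdorff.haus' (I := m) _ fun n => ?_
    rw [SModEq.zero, smul_eq_mul, Ideal.mul_top, ← sub_add_sub_cancel _
      (ev (MvPowerSeries.truncTotal n (q : MvPowerSeries ι k)))]
    refine Ideal.add_mem _ (key n _) ?_
    rw [← Ideal.Quotient.eq]
    exact hev n _ _ fun t ht => by simp [MvPowerSeries.coeff_truncTotal _ ht]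
  refine ⟨φ, fun c => ?_, fun i => ?_, key⟩
  · rw [← MvPolynomial.coe_C, hpoly]
    simp [ev]
  · rw [← MvPolynomial.coe_X, hpoly]
    simp [ev]

end Eval

section Finiteness

variable {k R : Type*} [CommRing k] [CommRing R] [IsLocalRing R] [IsNoetherianRing R]
  {ι : Type*} [Finite ι]

/-- If scalars hit every residue class then finitely many elements span modulo a power of the
maximal ideal. -/
theorem exists_finset_span_mod_pow (σ : k →+* R) (hσ : ∀ a, ∃ c, a - σ c ∈ maximalIdeal R)
    (n : ℕ) : ∃ s : Finset R, ∀ a, ∃ c : R → k, a - ∑ g ∈ s, σ (c g) * g ∈ maximalIdeal R ^ n := by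
  classical
  induction n with
  | zero => exact ⟨∅, fun a => ⟨0, by simp⟩⟩
  | succ n ih =>
    obtain ⟨s, hs⟩ := ih
    obtain ⟨t, ht⟩ : (maximalIdeal R ^ n).FG := IsNoetherian.noetherian _
    refine ⟨s ∪ t, fun a => ?_⟩
    obtain ⟨c, hc⟩ := hs a
    rw [← ht] at hc
    obtain ⟨b, _, hb⟩ := Submodule.mem_span_finset.1 hc
    choose c' hc' using fun g => hσ (b g)
    refine ⟨fun g => (if g ∈ s then c g else 0) + (if g ∈ t then c' g else 0), ?_⟩
    have h1 : ∑ g ∈ s ∪ t, σ (if g ∈ s then c g else 0) * g = ∑ g ∈ s, σ (c g) * g := by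
      rw [← Finset.sum_subset Finset.subset_union_left fun g _ hg => by simp [hg]]
      exact Finset.sum_congr rfl fun g hg => by rw [if_pos hg]
    have h2 : ∑ g ∈ s ∪ t, σ (if g ∈ t then c' g else 0) * g = ∑ g ∈ t, σ (c' g) * g := by
      rw [← Finset.sum_subset Finset.subset_union_right fun g _ hg => by simp [hg]]
      exact Finset.sum_congr rfl fun g hg => by rw [if_pos hg]
    simp only [map_add, add_mul, Finset.sum_add_distrib, h1, h2]
    rw [← sub_sub, ← hb, ← Finset.sum_sub_distrib]
    refine Submodule.sum_mem _ fun g hg => ?_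
    rw [smul_eq_mul, ← sub_mul, pow_succ']
    exact Ideal.mul_mem_mul (hc' g) (ht ▸ Submodule.subset_span hg)

/-- A ring homomorphism from a power series ring which sends the variables to generators of an
`m`-primary ideal of a complete local ring and is onto the residue field is finite. -/
theorem finite_of_powerSeriesHom (φ : MvPowerSeries ι k →+* R)
    (hres : ∀ a, ∃ c, a - φ (MvPowerSeries.C c) ∈ maximalIdeal R)
    (hX : ∀ i, φ (MvPowerSeries.X i) ∈ maximalIdeal R) {r : ℕ}
    (hr : maximalIdeal R ^ r ≤ Ideal.span (Set.range fun i => φ (MvPowerSeries.X i))) :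
    φ.Finite := by
  classical
  let := φ.toAlgebra
  show Module.Finite (MvPowerSeries ι k) R
  let I : Ideal (MvPowerSeries ι k) := Ideal.span (Set.range MvPowerSeries.X)
  have hI : I.map φ = Ideal.span (Set.range fun i => φ (MvPowerSeries.X i)) := by
    rw [Ideal.map_span, ← Set.range_comp]
    rfl
  have hIm : I.map φ ≤ maximalIdeal R := by
    rw [hI, Ideal.span_le]
    rintro _ ⟨i, rfl⟩
    exact hX i
  have hsmul : ∀ n, (I ^ n • ⊤ : Submodule (MvPowerSeries ι k) R) =
      (I.map φ ^ n).restrictScalars (MvPowerSeries ι k) := fun n => by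
    rw [Ideal.smul_top_eq_map, ← Ideal.map_pow]
    rfl
  have : IsHausdorff I R := ⟨fun a ha => IsHausdorff.haus' (I := maximalIdeal R) a fun n => by
    rw [SModEq.zero, smul_eq_mul, Ideal.mul_top]
    have h := SModEq.zero.1 (ha n)
    rw [hsmul, Submodule.restrictScalars_mem] at h
    exact Ideal.pow_right_mono hIm n h⟩
  obtain ⟨s, hs⟩ := exists_finset_span_mod_pow (φ.comp MvPowerSeries.C) hres r
  let f : (s → MvPowerSeries ι k) →ₗ[MvPowerSeries ι k] R :=
    ∑ g : s, (LinearMap.toSpanSingleton (MvPowerSeries ι k) R (g : R)).comp (LinearMap.proj g)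
  have hfv : ∀ v, f v = ∑ g : s, φ (v g) * (g : R) := fun v => by
    simp [f, Algebra.smul_def, RingHom.algebraMap_toAlgebra]
  have := isPrecomplete_pi (I := I) (R := MvPowerSeries ι k) s
  refine Module.Finite.of_surjective f (surjective_of_mkQ_comp_surjective (I := I) ?_)
  intro y
  obtain ⟨a, rfl⟩ := Submodule.mkQ_surjective _ y
  obtain ⟨c, hc⟩ := hs a
  refine ⟨fun g => MvPowerSeries.C (c g), ?_⟩
  rw [LinearMap.comp_apply, Submodule.mkQ_apply, Submodule.mkQ_apply, eq_comm,
    Submodule.Quotient.eq, ← pow_one I, hsmul, Submodule.restrictScalars_mem, pow_one, hI, hfv,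
    Finset.sum_coe_sort s fun g => φ (MvPowerSeries.C (c g)) * g]
  exact hr hc

variable (p : ℕ) [Fact p.Prime] [CharP R p]

/-- Composing a finite power series parametrisation with an iterate of Frobenius keeps it finite
when the scalars form a perfect ring. -/
theorem finite_iterateFrobenius_comp (φ : MvPowerSeries ι k →+* R)
    (hres : ∀ a, ∃ c, a - φ (MvPowerSeries.C c) ∈ maximalIdeal R)
    (hX : ∀ i, φ (MvPowerSeries.X i) ∈ maximalIdeal R) {r : ℕ}
    (hr : maximalIdeal R ^ r ≤ Ideal.span (Set.range fun i => φ (MvPowerSeries.X i))) (e : ℕ)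
    (hperf : ∀ c : k, ∃ c', c' ^ p ^ e = c) :
    ((iterateFrobenius R p e).comp φ).Finite := by
  set q := p ^ e
  have hq : q ≠ 0 := (pow_pos (Fact.out : p.Prime).pos _).ne'
  cases nonempty_fintype ι
  let x : ι → R := fun i => φ (MvPowerSeries.X i)
  let J := Ideal.span (Set.range fun i => x i ^ q)
  have hrad : Ideal.span (Set.range x) ≤ J.radical := by
    rw [Ideal.span_le]
    rintro _ ⟨i, rfl⟩
    exact ⟨q, Ideal.subset_span ⟨i, rfl⟩⟩
  obtain ⟨t, ht⟩ := Ideal.exists_pow_le_of_le_radical_of_fg hrad (IsNoetherian.noetherian _)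
  refine finite_of_powerSeriesHom _ (fun a => ?_) (fun i => ?_) (r := r * t) ?_
  · obtain ⟨c, hc⟩ := hres a
    obtain ⟨c', rfl⟩ := hperf c
    exact ⟨c', by simpa [RingHom.comp_apply, iterateFrobenius_def, ← map_pow] using hc⟩
  · rw [RingHom.comp_apply, iterateFrobenius_def]
    exact Ideal.pow_mem_of_mem _ (hX i) _ (Nat.pos_of_ne_zero hq)
  · rw [pow_mul]
    exact (Ideal.pow_right_mono hr t).trans (ht.trans_eq (by simp [J, x, q, iterateFrobenius_def]))

end Finiteness

section PowerSeries

variable {ι k : Type*} [Finite ι] [CommRing k]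

/-- A power series without terms of degree `< n` lies in the `n`-th power of the ideal spanned by
the variables. -/
theorem mem_span_X_pow {F : MvPowerSeries ι k} {n : ℕ}
    (hF : ∀ t : ι →₀ ℕ, t.degree < n → MvPowerSeries.coeff t F = 0) :
    F ∈ Ideal.span (Set.range (MvPowerSeries.X : ι → MvPowerSeries ι k)) ^ n := by
  let I := MvPolynomial.idealOfVars ι k
  let e := (MvPowerSeries.toAdicCompletionAlgEquiv ι k).toLinearEquiv
  have h0 : e F ∈ (I ^ n • ⊤ : Submodule (MvPolynomial ι k) _) := by
    rw [AdicCompletion.pow_smul_top_eq_ker_eval (MvPolynomial.idealOfVars_fg ι k)]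
    rw [LinearMap.mem_ker, AdicCompletion.eval_apply]
    show Submodule.Quotient.mk (MvPowerSeries.truncTotal n F) = 0
    have : MvPowerSeries.truncTotal n F = 0 := by
      ext t
      rw [MvPowerSeries.coeff_truncTotal_eq_ite]
      split_ifs with h
      · simp [hF t h]
      · simp
    rw [this, Submodule.Quotient.mk_zero]
  have h1 : F ∈ (I ^ n • ⊤ : Submodule (MvPolynomial ι k) (MvPowerSeries ι k)) := by
    have h := Submodule.mem_map_of_mem (f := e.symm.toLinearMap) h0
    rw [Submodule.map_smul''] at h
    simpa using Submodule.smul_mono le_rfl le_top h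
  rw [Ideal.smul_top_eq_map, Submodule.restrictScalars_mem, Ideal.map_pow] at h1
  simp only [I, Ideal.map_span, ← Set.range_comp] at h1
  have hfun : (algebraMap (MvPolynomial ι k) (MvPowerSeries ι k)) ∘ MvPolynomial.X =
      (MvPowerSeries.X : ι → MvPowerSeries ι k) := by
    funext i
    simp [← MvPolynomial.coe_X, MvPowerSeries.algebraMap_apply']
  rwa [hfun] at h1

/-- A power series minus its constant term lies in the ideal spanned by the variables. -/
theorem sub_C_constantCoeff_mem_span_X (F : MvPowerSeries ι k) :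
    F - MvPowerSeries.C (MvPowerSeries.constantCoeff F) ∈
      Ideal.span (Set.range (MvPowerSeries.X : ι → MvPowerSeries ι k)) := by
  rw [← pow_one (Ideal.span _)]
  refine mem_span_X_pow fun t ht => ?_
  obtain rfl : t = 0 := (Finsupp.degree_eq_zero_iff t).1 (Nat.lt_one_iff.1 ht)
  simp

/-- The maximal ideal of a power series ring over a field is spanned by the variables. -/
theorem maximalIdeal_mvPowerSeries (ι k : Type*) [Finite ι] [Field k] :
    maximalIdeal (MvPowerSeries ι k) =
      Ideal.span (Set.range (MvPowerSeries.X : ι → MvPowerSeries ι k)) := by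
  refine le_antisymm (fun F hF => ?_) ?_
  · have h : MvPowerSeries.constantCoeff F = 0 := by
      by_contra h
      exact (mem_maximalIdeal F).1 hF (MvPowerSeries.isUnit_iff_constantCoeff.2 (IsUnit.mk0 _ h))
    simpa [h] using sub_C_constantCoeff_mem_span_X F
  · rw [Ideal.span_le]
    rintro _ ⟨i, rfl⟩
    exact (mem_maximalIdeal _).2 fun h => by
      simpa using MvPowerSeries.isUnit_iff_constantCoeff.1 h

end PowerSeries

section Length

/-- Dimension over a field of scalars is length times the residue degree. -/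
theorem length_field_eq_mul {k B : Type*} [Field k] [CommRing B] [IsLocalRing B] [Algebra k B]
    (M : Type*) [AddCommGroup M] [Module k M] [Module B M] [IsScalarTower k B M] :
    Module.length k M = Module.length B M * Module.length k (ResidueField B) := by
  have : IsLocalHom (algebraMap k B) := ⟨fun a ha => Ne.isUnit fun h => by simp [h] at ha⟩
  rw [IsLocalRing.length_restrictScalars k B M,
    ← Module.length_eq_of_surjective (S := k) (R := ResidueField k) (M := ResidueField B)
      residue_surjective]

/-- Dimension over a coefficient field is length. -/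
theorem finrank_eq_length_of_residue_surjective {k B : Type*} [Field k] [CommRing B] [IsLocalRing B] [Algebra k B]
    (hres : Function.Surjective ((residue B).comp (algebraMap k B)))
    (M : Type*) [AddCommGroup M] [Module k M] [Module B M] [IsScalarTower k B M] :
    Module.finrank k M = (Module.length B M).toNat := by
  have h1 : Module.length k (ResidueField B) = 1 := by
    rw [Module.length_eq_of_surjective (R := ResidueField B) (by simpa [IsScalarTower.algebraMap_eq k B (ResidueField B)] using hres)]
    exact Module.length_eq_one _ _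
  rw [← mul_one (Module.length B M), ← h1, ← length_field_eq_mul M, Module.length_eq_rank]
  rfl

end Length

section Package

variable (R : Type*) [CommRing R] [IsNoetherianRing R] [IsLocalRing R]
  [IsAdicComplete (maximalIdeal R) R] (p : ℕ) [Fact p.Prime] [CharP R p]
  [PerfectField (ResidueField R)]

/-- A complete Noetherian local ring of characteristic `p` with perfect residue field is finite
over itself via every iterate of Frobenius. -/
theorem iterateFrobenius_finite (e : ℕ) : (iterateFrobenius R p e).Finite := by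
  obtain ⟨σ, hσ⟩ := exists_coefficientField (R := R) p
  obtain ⟨x, r, hxm, hr⟩ := exists_sop (A := R)
  obtain ⟨φ, hC, hX, -⟩ :=
    exists_evalHom σ x fun i => hxm (Ideal.subset_span (Set.mem_range_self i))
  have : PerfectRing (ResidueField R) p := PerfectField.toPerfectRing p
  refine RingHom.Finite.of_comp_finite
    (finite_iterateFrobenius_comp p φ (fun a => ⟨residue R a, ?_⟩) (fun i => ?_) (r := r) ?_ e
      fun c => ⟨(iterateFrobeniusEquiv (ResidueField R) p e).symm c, ?_⟩)
  · rw [hC, ← residue_eq_zero_iff, map_sub, hσ, sub_self]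
  · rw [hX]
    exact hxm (Ideal.subset_span (Set.mem_range_self i))
  · simpa only [hX] using hr
  · rw [← iterateFrobeniusEquiv_def, RingEquiv.apply_symm_apply]

end Package

end Vale.Agent.P202
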