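import Vale.Agent.P202.Mult

/-!
# P202 RingSide: lengths of quotients, growth of the Hilbert-Samuel function, dimensions
-/

noncomputable section

namespace Vale.Agent.P202

open IsLocalRing

section Length

variable {A : Type*} [CommRing A]

/-- The length of the quotient by an ideal, as a natural number (zero if infinite). -/
def qlen (I : Ideal A) : ℕ := (Module.length A (A ⧸ I)).toNat

theorem length_quotient_eq_add {B I : Ideal A} (h : B ≤ I) :
    Module.length A (A ⧸ B) =
      Module.length A (Submodule.map B.mkQ I) + Module.length A (A ⧸ I) := by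
  refine Module.length_eq_add_of_exact (Submodule.map B.mkQ I).subtype (Submodule.factor h)
    (Submodule.subtype_injective _) (Submodule.factor_surjective h) ?_
  intro x
  obtain ⟨a, rfl⟩ := Submodule.mkQ_surjective B x
  constructor
  · intro ha
    have ha' : a ∈ I := (Submodule.Quotient.mk_eq_zero I).1 ha
    exact ⟨⟨_, Submodule.mem_map_of_mem ha'⟩, rfl⟩
  · rintro ⟨⟨y, hy⟩, hyx⟩
    obtain ⟨c, hc, rfl⟩ := Submodule.mem_map.1 hy
    rw [← hyx]
    exact (Submodule.Quotient.mk_eq_zero I).2 hc

theorem length_quotient_mono {B I : Ideal A} (h : B ≤ I) :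
    Module.length A (A ⧸ I) ≤ Module.length A (A ⧸ B) :=
  Module.length_le_of_surjective _ (Submodule.factor_surjective h)

/-- A piece spanned by `s` and killed by `J` has length at most `s.card` times that of `A ⧸ J`. -/
theorem length_map_mkQ_le {B I J : Ideal A} (s : Finset A)
    (hI : I ≤ Ideal.span (s : Set A) ⊔ B) (hJ : ∀ a ∈ s, ∀ c ∈ J, c * a ∈ B) :
    Module.length A (Submodule.map B.mkQ I) ≤ s.card * Module.length A (A ⧸ J) := by
  classical
  let g : s → (A ⧸ J) →ₗ[A] A ⧸ B := fun a =>
    J.liftQ (LinearMap.toSpanSingleton A (A ⧸ B) (B.mkQ (a : A))) (fun c hc => by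
      rw [LinearMap.mem_ker, LinearMap.toSpanSingleton_apply, ← map_smul, smul_eq_mul]
      exact (Submodule.Quotient.mk_eq_zero B).2 (hJ _ a.2 c hc))
  let φ : (s → A ⧸ J) →ₗ[A] A ⧸ B := LinearMap.lsum A (fun _ : s => A ⧸ J) A g
  have hle : Submodule.map B.mkQ I ≤ LinearMap.range φ := by
    refine (Submodule.map_mono hI).trans ?_
    rw [Submodule.map_sup, Submodule.map_span, sup_le_iff]
    constructor
    · rw [Submodule.span_le]
      rintro _ ⟨a, ha, rfl⟩
      refine ⟨Pi.single ⟨a, ha⟩ (Submodule.Quotient.mk 1), ?_⟩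
      show φ (Pi.single ⟨a, ha⟩ (Submodule.Quotient.mk 1)) = B.mkQ a
      simp only [φ, LinearMap.lsum_apply, LinearMap.sum_apply]
      rw [Finset.sum_eq_single ⟨a, ha⟩]
      · simp [g]
        exact one_smul A (Ideal.Quotient.mk B a)
      · intro b _ hb
        simp [hb]
      · simp
    · rw [show Submodule.map B.mkQ B = ⊥ by simp]
      exact bot_le
  calc Module.length A (Submodule.map B.mkQ I)
      ≤ Module.length A (LinearMap.range φ) :=
        Module.length_le_of_injective _ (Submodule.inclusion_injective hle)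
    _ ≤ Module.length A (s → A ⧸ J) :=
        Module.length_le_of_surjective _ φ.surjective_rangeRestrict
    _ = _ := by
        rw [Module.length_pi]
        simp

end Length

section Local

variable {A : Type*} [CommRing A] [IsNoetherianRing A] [IsLocalRing A]

theorem length_quotient_ne_top {I : Ideal A} {r : ℕ} (h : maximalIdeal A ^ r ≤ I) :
    Module.length A (A ⧸ I) ≠ ⊤ := by
  suffices Module.length A (A ⧸ maximalIdeal A ^ r) ≠ ⊤ from
    ne_top_of_le_ne_top this (length_quotient_mono h)
  induction r generalizing I with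
  | zero =>
    rw [pow_zero, Ideal.one_eq_top, Module.length_eq_zero]
    exact ENat.zero_ne_top
  | succ r ih =>
    obtain ⟨s, hs⟩ : (maximalIdeal A ^ r).FG := IsNoetherian.noetherian _
    rw [length_quotient_eq_add (Ideal.pow_le_pow_right r.le_succ)]
    refine WithTop.add_ne_top.2 ⟨?_, ih le_rfl⟩
    refine ne_top_of_le_ne_top ?_ (length_map_mkQ_le s (J := maximalIdeal A)
      (le_sup_of_le_left hs.ge) fun a ha c hc => ?_)
    · refine WithTop.mul_ne_top (ENat.natCast_ne_top _) ?_
      have : IsSimpleModule A (A ⧸ maximalIdeal A) := by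
        rw [isSimpleModule_iff_isCoatom]
        exact (maximalIdeal.isMaximal A).out
      rw [Module.length_eq_one]
      exact ENat.one_ne_top
    · rw [pow_succ']
      exact Ideal.mul_mem_mul hc (hs ▸ Submodule.subset_span ha)

theorem coe_qlen {I : Ideal A} {r : ℕ} (h : maximalIdeal A ^ r ≤ I) :
    (qlen I : ℕ∞) = Module.length A (A ⧸ I) :=
  ENat.natCast_toNat (length_quotient_ne_top h)

theorem qlen_mono {B I : Ideal A} {r : ℕ} (hr : maximalIdeal A ^ r ≤ B) (h : B ≤ I) :
    qlen I ≤ qlen B :=
  ENat.toNat_le_toNat (length_quotient_mono h) (length_quotient_ne_top hr)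

/-- A Noetherian local ring has a system of parameters with `dimNat` elements. -/
theorem exists_sop : ∃ (x : Fin (dimNat A) → A) (r : ℕ),
    Ideal.span (Set.range x) ≤ maximalIdeal A ∧ maximalIdeal A ^ r ≤ Ideal.span (Set.range x) := by
  classical
  obtain ⟨s, hs, hcard⟩ :=
    (maximalIdeal A).exists_finset_card_eq_height_of_isNoetherianRing
  have hd : dimNat A = s.card := by
    rw [dimNat, ← IsLocalRing.maximalIdeal_height_eq_ringKrullDim, ← hcard]
    rfl
  let e : Fin (dimNat A) ≃ s := (finCongr hd).trans s.equivFin.symm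
  refine ⟨fun i => (e i : A), ?_⟩
  have hr : Set.range (fun i => (e i : A)) = (s : Set A) := by
    ext a
    exact ⟨fun ⟨i, hi⟩ => hi ▸ (e i).2, fun ha => ⟨e.symm ⟨a, ha⟩, by simp⟩⟩
  rw [hr]
  have hrad : maximalIdeal A ≤ (Ideal.span (s : Set A)).radical := by
    rw [Ideal.radical_eq_sInf]
    refine le_sInf fun P ⟨hP, hPp⟩ => ?_
    exact hs.2 ⟨hPp, hP⟩ (IsLocalRing.le_maximalIdeal hPp.ne_top)
  obtain ⟨r, hr⟩ := Ideal.exists_pow_le_of_le_radical_of_fg hrad (IsNoetherian.noetherian _)
  exact ⟨r, hs.1.2, hr⟩

/-- The Hilbert-Samuel function grows at most like the `dimNat`-th power. -/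
theorem exists_qlen_pow_le :
    ∃ C : ℕ, ∀ N, qlen (maximalIdeal A ^ N) ≤ C * (N + 1) ^ dimNat A := by
  classical
  obtain ⟨x, r, hxm, hr⟩ := exists_sop (A := A)
  generalize dimNat A = d at x
  set J := Ideal.span (Set.range x) with hJ
  refine ⟨qlen J, fun N => ?_⟩
  have hJN : ∀ n, maximalIdeal A ^ (r * n) ≤ J ^ n := fun n => by
    rw [pow_mul]; exact Ideal.pow_right_mono hr n
  refine (qlen_mono (hJN N) (Ideal.pow_right_mono hxm N)).trans ?_
  rcases d with _ | d
  · have h0 : J = ⊥ := by simp [hJ]
    rcases N with _ | N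
    · rw [pow_zero, Ideal.one_eq_top, qlen, Module.length_eq_zero]
      simp
    · rw [h0, Ideal.zero_eq_bot.symm, zero_pow (Nat.succ_ne_zero N)]
      simp
  have hmon : ∀ j, ∃ s : Finset A, s.card ≤ (j + 1) ^ d ∧ J ^ j ≤ Ideal.span (s : Set A) ∧
      ∀ a ∈ s, a ∈ J ^ j := by
    intro j
    let mon : (Fin d → ℕ) → A := fun e =>
      (∏ i : Fin d, x i.castSucc ^ e i) * x (Fin.last d) ^ (j - ∑ i, e i)
    refine ⟨((Fintype.piFinset fun _ : Fin d => Finset.range (j + 1)).filter
      fun e => ∑ i, e i ≤ j).image mon, ?_, ?_, ?_⟩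
    · refine Finset.card_image_le.trans ((Finset.card_filter_le _ _).trans ?_)
      simp [Fintype.card_piFinset]
    · rw [hJ, Ideal.span, Submodule.span_pow, Submodule.span_le]
      intro a ha
      obtain ⟨f, rfl⟩ := Set.mem_pow.1 ha
      choose φ hφ using fun i => (f i).2
      rw [List.prod_ofFn]
      set e : Fin d → ℕ := fun i => (Finset.univ.filter fun k => φ k = i.castSucc).card with he
      have htot : ∑ i, e i + (Finset.univ.filter fun k => φ k = Fin.last d).card = j := by
        have h := Finset.card_eq_sum_card_fiberwise (f := φ) (s := Finset.univ)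
          (t := Finset.univ) (fun _ _ => Finset.mem_univ _)
        rw [Fin.sum_univ_castSucc, Finset.card_univ, Fintype.card_fin] at h
        exact h.symm
      have hprod : ∏ k, (f k : A) = mon e := by
        simp only [← hφ]
        rw [← Finset.prod_fiberwise Finset.univ φ (fun k => x (φ k)), Fin.prod_univ_castSucc]
        have hfib : ∀ i, ∏ k ∈ Finset.univ.filter (fun k => φ k = i), x (φ k) =
            x i ^ (Finset.univ.filter fun k => φ k = i).card := fun i =>
          Finset.prod_eq_pow_card fun k hk => by rw [(Finset.mem_filter.1 hk).2]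
        simp only [hfib, mon]
        congr 2
        omega
      rw [hprod]
      refine Submodule.subset_span (Finset.mem_image.2 ⟨e, Finset.mem_filter.2 ⟨?_, by omega⟩, rfl⟩)
      refine Fintype.mem_piFinset.2 fun i => Finset.mem_range.2 (Nat.lt_succ_of_le ?_)
      exact (Finset.card_filter_le _ _).trans (by simp)
    · intro a ha
      obtain ⟨e, he, rfl⟩ := Finset.mem_image.1 ha
      have hx : ∀ i, x i ∈ J := fun i => Ideal.subset_span ⟨i, rfl⟩
      have hle := (Finset.mem_filter.1 he).2
      have hprod : ∀ t : Finset (Fin d),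
          ∏ i ∈ t, x i.castSucc ^ e i ∈ J ^ (∑ i ∈ t, e i) := by
        intro t
        induction t using Finset.induction_on with
        | empty => simp
        | insert i t hi ih =>
          rw [Finset.prod_insert hi, Finset.sum_insert hi, pow_add]
          exact Ideal.mul_mem_mul (Ideal.pow_mem_pow (hx _) _) ih
      have h := Ideal.mul_mem_mul (hprod Finset.univ)
        (Ideal.pow_mem_pow (hx (Fin.last d)) (j - ∑ i, e i))
      rw [← pow_add] at h
      rwa [show ∑ i, e i + (j - ∑ i, e i) = j by omega] at h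
  have key : ∀ n, Module.length A (A ⧸ J ^ n) ≤
      ((n * (n + 1) ^ d : ℕ) : ℕ∞) * Module.length A (A ⧸ J) := by
    intro n
    induction n with
    | zero => simp [Module.length_eq_zero_iff]
    | succ n ih =>
      rw [length_quotient_eq_add (Ideal.pow_le_pow_right n.le_succ)]
      obtain ⟨s, hs, hspan, hmem⟩ := hmon n
      have h1 := length_map_mkQ_le (B := J ^ (n + 1)) (J := J) s (le_sup_of_le_left hspan)
        fun a ha c hc => by rw [pow_succ']; exact Ideal.mul_mem_mul hc (hmem a ha)
      have h2 : s.card + n * (n + 1) ^ d ≤ (n + 1) * (n + 1 + 1) ^ d := by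
        have h3 : (n + 1) ^ d ≤ (n + 1 + 1) ^ d := Nat.pow_le_pow_left (Nat.le_succ _) d
        calc s.card + n * (n + 1) ^ d ≤ (n + 1) * (n + 1) ^ d := by
              rw [Nat.add_mul, one_mul]; omega
          _ ≤ _ := Nat.mul_le_mul_left _ h3
      calc _ ≤ (s.card : ℕ∞) * Module.length A (A ⧸ J) +
            ((n * (n + 1) ^ d : ℕ) : ℕ∞) * Module.length A (A ⧸ J) := add_le_add h1 ih
        _ = ((s.card + n * (n + 1) ^ d : ℕ) : ℕ∞) * Module.length A (A ⧸ J) := by
            rw [← add_mul, ← Nat.cast_add]
        _ ≤ _ := by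
            exact mul_le_mul' (Nat.cast_le.2 h2) le_rfl
  have h := key N
  rw [← coe_qlen hr, ← coe_qlen (hJN N), ← Nat.cast_mul, Nat.cast_le] at h
  refine h.trans ?_
  rw [mul_comm]
  refine Nat.mul_le_mul_left _ ?_
  rw [pow_succ']
  exact Nat.mul_le_mul_right _ N.le_succ

end Local

/-- A module-finite flat local extension of Noetherian local rings preserves dimension. -/
theorem dimNat_eq_of_finite_flat {R S : Type*} [CommRing R] [CommRing S] [IsNoetherianRing R]
    [IsNoetherianRing S] [IsLocalRing R] [IsLocalRing S] [Algebra R S]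
    [IsLocalHom (algebraMap R S)] [Module.Finite R S] [Module.Flat R S] :
    dimNat S = dimNat R := by
  have hloc : (maximalIdeal S).comap (algebraMap R S) = maximalIdeal R := by
    ext a
    simp [mem_nonunits_iff]
  set m := maximalIdeal R
  have : (maximalIdeal S).LiesOver m := ⟨hloc.symm⟩
  have h := Ideal.height_eq_height_add_of_liesOver_of_hasGoingDown (R := R) m (maximalIdeal S)
  set Q := S ⧸ m.map (algebraMap R S)
  have : IsArtinianRing Q := by
    have : Module.Finite (R ⧸ m) Q := Module.Finite.of_restrictScalars_finite R _ _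
    let := Ideal.Quotient.field m
    exact IsArtinianRing.of_finite (R ⧸ m) Q
  have h0 : ((maximalIdeal S).map (Ideal.Quotient.mk (m.map (algebraMap R S)))).height = 0 := by
    have hle : m.map (algebraMap R S) ≤ maximalIdeal S :=
      Ideal.map_le_iff_le_comap.2 hloc.ge
    have : ((maximalIdeal S).map (Ideal.Quotient.mk (m.map (algebraMap R S)))).IsPrime :=
      Ideal.map_isPrime_of_surjective Ideal.Quotient.mk_surjective (by rwa [Ideal.mk_ker])
    exact Ideal.height_eq_zero_iff.2 (IsArtinianRing.mem_minimalPrimes bot_le)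
  rw [h0, add_zero] at h
  simp only [dimNat, ← IsLocalRing.maximalIdeal_height_eq_ringKrullDim, h]
  rfl

end Vale.Agent.P202
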