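import Vale.Agent.P202.RingSide.Growth

/-!
# P202 RingSide: reductions of the maximal ideal generated by `dimNat` elements
-/

noncomputable section

namespace Vale.Agent.P202

open IsLocalRing Polynomial

variable {A : Type*} [CommRing A] [IsNoetherianRing A] [IsLocalRing A]

/-- The degree `i` part of the relations defining the quotient fibre cone modulo `J`. -/
def coneRel (J : Ideal A) : ℕ → Ideal A
  | 0 => maximalIdeal A
  | i + 1 => maximalIdeal A ^ (i + 2) ⊔ J * maximalIdeal A ^ i

theorem pow_succ_le_coneRel (J : Ideal A) (i : ℕ) : maximalIdeal A ^ (i + 1) ≤ coneRel J i := by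
  cases i with
  | zero => rw [pow_one]; rfl
  | succ i => exact le_sup_left

theorem pow_mul_coneRel_le (J : Ideal A) (a i : ℕ) :
    maximalIdeal A ^ a * coneRel J i ≤ coneRel J (a + i) := by
  cases i with
  | zero =>
    rw [add_zero]
    refine le_trans (le_of_eq ?_) (pow_succ_le_coneRel J a)
    rw [pow_succ]
    rfl
  | succ i =>
    rw [← add_assoc, coneRel, coneRel, Ideal.mul_sup, ← pow_add, ← mul_assoc,
      mul_comm (maximalIdeal A ^ a) J, mul_assoc, ← pow_add]
    exact le_of_eq (by rw [show a + (i + 2) = a + i + 2 by omega])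

/-- Finitely many submodules not containing a given one cannot cover it: infinite residue field. -/
theorem exists_mem_forall_notMem [Infinite (ResidueField A)] (M : Ideal A) (s : Finset (Ideal A))
    (hs : ∀ V ∈ s, ¬ M ≤ V) : ∃ l ∈ M, ∀ V ∈ s, l ∉ V := by
  classical
  induction s using Finset.induction_on with
  | empty => exact ⟨0, M.zero_mem, fun V hV => absurd hV (Finset.notMem_empty V)⟩
  | insert V s hV ih =>
    obtain ⟨l, hlM, hl⟩ := ih fun W hW => hs W (Finset.mem_insert_of_mem hW)
    by_cases hlV : l ∈ V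
    swap
    · exact ⟨l, hlM, fun W hW => (Finset.mem_insert.1 hW).elim (fun h => h ▸ hlV) (hl W)⟩
    obtain ⟨w, hwM, hwV⟩ := SetLike.not_le_iff_exists.1 (hs V (Finset.mem_insert_self V s))
    set bad : Ideal A → Set (ResidueField A) :=
      fun W => {c | c ≠ 0 ∧ ∃ a, residue A a = c ∧ l + a * w ∈ W}
    have hbad : ∀ W ∈ s, (bad W).Subsingleton := by
      rintro W hW c ⟨-, a, rfl, ha⟩ c' ⟨-, b, rfl, hb⟩
      by_contra hne
      have hu : IsUnit (a - b) := residue_ne_zero_iff_isUnit _ |>.1 (by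
        rw [map_sub]; exact sub_ne_zero.2 hne)
      have h1 : (a - b) * w ∈ W := by
        have := W.sub_mem ha hb
        rwa [add_sub_add_left_eq_sub, ← sub_mul] at this
      have hw : w ∈ W := (Ideal.unit_mul_mem_iff_mem W hu).1 h1
      exact hl W hW (by simpa using W.sub_mem ha (W.mul_mem_left a hw))
    have hfin : (insert 0 (⋃ W ∈ s, bad W) : Set (ResidueField A)).Finite :=
      (s.finite_toSet.biUnion fun W hW => (hbad W hW).finite).insert 0
    obtain ⟨c, hc⟩ := hfin.exists_notMem
    simp only [Set.mem_insert_iff, Set.mem_iUnion, not_or, not_exists] at hc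
    obtain ⟨a, rfl⟩ := residue_surjective c
    have ha : IsUnit a := (residue_ne_zero_iff_isUnit a).1 hc.1
    refine ⟨l + a * w, M.add_mem hlM (M.mul_mem_left a hwM), fun W hW hmem => ?_⟩
    rcases Finset.mem_insert.1 hW with rfl | hW
    · exact hwV ((Ideal.unit_mul_mem_iff_mem _ ha).1 (by simpa using W.sub_mem hmem hlV))
    · exact hc.2 W hW ⟨hc.1, a, rfl, hmem⟩

/-- The relation ideal of the quotient fibre cone, inside the Rees algebra. -/
def coneIdeal (J : Ideal A) : Ideal (reesAlgebra (maximalIdeal A)) where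
  carrier := {f | ∀ i, (f : A[X]).coeff i ∈ coneRel J i}
  add_mem' hf hg i := by
    simpa using Ideal.add_mem _ (hf i) (hg i)
  zero_mem' i := by simp
  smul_mem' c f hf i := by
    change ((c : A[X]) * (f : A[X])).coeff i ∈ coneRel J i
    rw [coeff_mul]
    refine Ideal.sum_mem _ fun p hp => ?_
    have h := Ideal.mul_mem_mul (c.2 p.1) (hf p.2)
    exact (Finset.HasAntidiagonal.mem_antidiagonal.1 hp) ▸ pow_mul_coneRel_le J p.1 p.2 h

/-- Outside finitely many primes not containing `X`, the elements killed modulo `Q` by `L` are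
killed by a power of the ideal spanned by `X`. -/
theorem exists_primes_pow_kill {R : Type*} [CommRing R] [IsNoetherianRing R] (Q : Ideal R)
    (X : Set R) : ∃ bad : Finset (Ideal R), (∀ P ∈ bad, ¬ X ⊆ (P : Set R)) ∧
      ∀ L : R, (∀ P ∈ bad, L ∉ P) → ∃ c : ℕ, ∀ w : R, L * w ∈ Q →
        ∀ t ∈ Ideal.span X ^ c, t * w ∈ Q := by
  classical
  have hfin := associatedPrimes.finite R (R ⧸ Q)
  refine ⟨hfin.toFinset.filter fun P => ¬ X ⊆ (P : Set R), fun P hP => (Finset.mem_filter.1 hP).2,
    fun L hL => ?_⟩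
  let Z : Submodule R (R ⧸ Q) := LinearMap.ker (LinearMap.lsmul R (R ⧸ Q) L)
  have hI1 : Ideal.span X ≤ (Module.annihilator R Z).radical := by
    rw [← Ideal.sInf_minimalPrimes]
    refine le_sInf fun P hP => Ideal.span_le.2 ?_
    by_contra hX
    have hPZ := Module.associatedPrimes.minimalPrimes_annihilator_subset_associatedPrimes R Z hP
    have hPQ : P ∈ associatedPrimes R (R ⧸ Q) :=
      associatedPrimes.subset_of_injective Z.subtype_injective hPZ
    have hLP : L ∈ P := hP.1.2 (Module.mem_annihilator.2 fun z => Subtype.ext z.2)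
    exact hL P (Finset.mem_filter.2 ⟨hfin.mem_toFinset.2 hPQ, hX⟩) hLP
  obtain ⟨c, hc⟩ := Ideal.exists_pow_le_of_le_radical_of_fg hI1 (IsNoetherian.noetherian _)
  refine ⟨c, fun w hw t ht => ?_⟩
  have hwZ : Submodule.Quotient.mk w ∈ Z := by
    rw [LinearMap.mem_ker, LinearMap.lsmul_apply, ← Submodule.Quotient.mk_smul,
      Submodule.Quotient.mk_eq_zero]
    exact hw
  have h0 : t • (Submodule.Quotient.mk w : R ⧸ Q) = 0 :=
    congrArg Subtype.val (Module.mem_annihilator.1 (hc ht) ⟨_, hwZ⟩)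
  rw [← Submodule.Quotient.mk_smul, Submodule.Quotient.mk_eq_zero] at h0
  exact h0

omit [IsNoetherianRing A] in
/-- The monomial of degree `i` with a coefficient in the `i`-th power, as a Rees element. -/
def reesMon (i : ℕ) (a : A) (ha : a ∈ maximalIdeal A ^ i) : reesAlgebra (maximalIdeal A) :=
  ⟨monomial i a, reesAlgebra.monomial_mem.2 ha⟩

/-- The elements of degree one. -/
def reesGen : Set (reesAlgebra (maximalIdeal A)) :=
  {f | ∃ a, ∃ ha : a ∈ maximalIdeal A ^ 1, f = reesMon 1 a ha}

omit [IsNoetherianRing A] in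
theorem reesMon_mem_pow : ∀ (c a : ℕ) (r : A) (hr : r ∈ maximalIdeal A ^ a), c ≤ a →
    reesMon a r hr ∈ Ideal.span reesGen ^ c := by
  intro c
  induction c with
  | zero => intro a r hr _; simp
  | succ c ih =>
    intro a r hr hca
    obtain ⟨a, rfl⟩ : ∃ a', a = a' + 1 := ⟨a - 1, by omega⟩
    have hr' : r ∈ maximalIdeal A ^ a * maximalIdeal A := by rwa [← pow_succ]
    suffices ∃ h : r ∈ maximalIdeal A ^ (a + 1),
        reesMon (a + 1) r h ∈ Ideal.span reesGen ^ (c + 1) from this.2
    refine Submodule.mul_induction_on hr' (fun u hu v hv => ?_) (fun u v hu hv => ?_)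
    · have hv1 : v ∈ maximalIdeal A ^ 1 := by rwa [pow_one]
      have huv : u * v ∈ maximalIdeal A ^ (a + 1) := by
        rw [pow_succ]; exact Ideal.mul_mem_mul hu hv
      refine ⟨huv, ?_⟩
      have h : reesMon (a + 1) (u * v) huv = reesMon a u hu * reesMon 1 v hv1 :=
        Subtype.ext (monomial_mul_monomial a 1 u v).symm
      rw [h, pow_succ]
      exact Ideal.mul_mem_mul (ih a u hu (by omega)) (Ideal.subset_span ⟨v, hv1, rfl⟩)
    · obtain ⟨hu1, hu2⟩ := hu
      obtain ⟨hv1, hv2⟩ := hv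
      refine ⟨(maximalIdeal A ^ (a + 1)).add_mem hu1 hv1, ?_⟩
      have h : reesMon (a + 1) (u + v) ((maximalIdeal A ^ (a + 1)).add_mem hu1 hv1) =
          reesMon (a + 1) u hu1 + reesMon (a + 1) v hv1 :=
        Subtype.ext (map_add (monomial (a + 1)) u v)
      rw [h]
      exact Ideal.add_mem _ hu2 hv2

/-- The degree one coefficients lying in an ideal of the Rees algebra. -/
def degOne (P : Ideal (reesAlgebra (maximalIdeal A))) : Ideal A where
  carrier := {a | ∃ ha : a ∈ maximalIdeal A ^ 1, reesMon 1 a ha ∈ P}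
  add_mem' := fun {a b} ⟨ha, ha'⟩ ⟨hb, hb'⟩ => ⟨Ideal.add_mem _ ha hb, by
    have h : reesMon 1 (a + b) (Ideal.add_mem _ ha hb) = reesMon 1 a ha + reesMon 1 b hb :=
      Subtype.ext (map_add (monomial 1) a b)
    rw [h]; exact P.add_mem ha' hb'⟩
  zero_mem' := ⟨Ideal.zero_mem _, by
    have h : reesMon 1 (0 : A) (Ideal.zero_mem _) = 0 := Subtype.ext (map_zero (monomial 1))
    rw [h]; exact P.zero_mem⟩
  smul_mem' := fun c a ⟨ha, ha'⟩ => ⟨Ideal.mul_mem_left _ c ha, by
    have h : reesMon 1 (c * a) (Ideal.mul_mem_left _ c ha) =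
        algebraMap A (reesAlgebra (maximalIdeal A)) c * reesMon 1 a ha :=
      Subtype.ext (by simp [reesMon, C_mul_monomial])
    change reesMon 1 (c * a) _ ∈ P
    rw [h]
    exact P.mul_mem_left _ ha'⟩

/-- A superficial element of the quotient fibre cone. -/
theorem exists_superficial [Infinite (ResidueField A)] (J : Ideal A) :
    ∃ l ∈ maximalIdeal A, ∃ N₁ : ℕ, ∀ N, N₁ ≤ N → ∀ z ∈ maximalIdeal A ^ (N + 1),
      l * z ∈ coneRel J (N + 2) → z ∈ coneRel J (N + 1) := by
  classical
  obtain ⟨bad, hbad, hkill⟩ := exists_primes_pow_kill (coneIdeal J) (reesGen (A := A))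
  obtain ⟨l, hlm, hl⟩ := exists_mem_forall_notMem (maximalIdeal A) (bad.image degOne)
    fun W hW hmW => by
      obtain ⟨P, hP, rfl⟩ := Finset.mem_image.1 hW
      refine hbad P hP ?_
      rintro f ⟨a, ha, rfl⟩
      obtain ⟨_, ha'⟩ := hmW (by simpa using ha)
      exact ha'
  have hl1 : l ∈ maximalIdeal A ^ 1 := by rwa [pow_one]
  set L := reesMon 1 l hl1
  obtain ⟨c, hc⟩ := hkill L fun P hP hLP => hl _ (Finset.mem_image_of_mem _ hP) ⟨hl1, hLP⟩
  obtain ⟨G, hG⟩ : (Submodule.comap (LinearMap.mulLeft (reesAlgebra (maximalIdeal A)) L)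
      (coneIdeal J)).FG := IsNoetherian.noetherian _
  set D := G.sup fun g => (g : A[X]).natDegree
  refine ⟨l, hlm, D + c, fun N hN z hz hlz => ?_⟩
  set w := reesMon (N + 1) z hz
  have hw : w ∈ Submodule.comap (LinearMap.mulLeft (reesAlgebra (maximalIdeal A)) L)
      (coneIdeal J) := by
    intro i
    change ((monomial 1 l : A[X]) * monomial (N + 1) z).coeff i ∈ _
    rw [monomial_mul_monomial, coeff_monomial]
    split_ifs with h
    · rw [← h, show 1 + (N + 1) = N + 2 by omega]
      exact hlz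
    · exact Ideal.zero_mem _
  rw [← hG, Submodule.mem_span_finset] at hw
  obtain ⟨r, -, hr⟩ := hw
  have hcoef : ((∑ g ∈ G, r g • g : reesAlgebra (maximalIdeal A)) : A[X]).coeff (N + 1) ∈
      coneRel J (N + 1) := by
    rw [AddSubmonoidClass.coe_finsetSum, finsetSum_coeff]
    refine Ideal.sum_mem _ fun g hg => ?_
    rw [smul_eq_mul, MulMemClass.coe_mul, coeff_mul]
    refine Ideal.sum_mem _ fun p hp => ?_
    have hpN := Finset.HasAntidiagonal.mem_antidiagonal.1 hp
    by_cases hdeg : (g : A[X]).natDegree < p.2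
    · rw [coeff_eq_zero_of_natDegree_lt hdeg, mul_zero]
      exact Ideal.zero_mem _
    have hD : (g : A[X]).natDegree ≤ D :=
      Finset.le_sup (f := fun g : reesAlgebra (maximalIdeal A) => (g : A[X]).natDegree) hg
    have hgT : L * g ∈ coneIdeal J := hG.le (Submodule.subset_span hg)
    have h1 := hc g hgT _ (reesMon_mem_pow c p.1 _ ((r g).2 p.1) (by omega)) (N + 1)
    change ((monomial p.1 ((r g : A[X]).coeff p.1) : A[X]) * (g : A[X])).coeff (N + 1) ∈ _ at h1
    rwa [← hpN, add_comm p.1 p.2, coeff_monomial_mul, add_comm p.2 p.1, hpN] at h1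
  rw [hr] at hcoef
  simpa [w, reesMon] using hcoef

/-- One step of the length of the quotient fibre cone. -/
def coneLen (J : Ideal A) (N : ℕ) : ℕ :=
  qlen (coneRel J (N + 1)) - qlen (maximalIdeal A ^ (N + 1))

theorem pow_le_coneRel (J : Ideal A) (N : ℕ) : maximalIdeal A ^ (N + 2) ≤ coneRel J (N + 1) :=
  le_sup_left

theorem coneRel_le {J : Ideal A} (hJ : J ≤ maximalIdeal A) (N : ℕ) :
    coneRel J (N + 1) ≤ maximalIdeal A ^ (N + 1) := by
  refine sup_le (Ideal.pow_le_pow_right (N + 1).le_succ) ?_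
  rw [pow_succ']
  exact Ideal.mul_mono_left hJ

theorem sum_coneLen_le {J : Ideal A} (hJ : J ≤ maximalIdeal A) (N : ℕ) :
    ∑ i ∈ Finset.range N, coneLen J i ≤ qlen (maximalIdeal A ^ (N + 1)) := by
  induction N with
  | zero => simp
  | succ N ih =>
    rw [Finset.sum_range_succ]
    have h1 : qlen (coneRel J (N + 1)) ≤ qlen (maximalIdeal A ^ (N + 2)) :=
      qlen_mono le_rfl (pow_le_coneRel J N)
    have h2 : qlen (maximalIdeal A ^ (N + 1)) ≤ qlen (coneRel J (N + 1)) :=
      qlen_mono (pow_le_coneRel J N) (coneRel_le hJ N)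
    simp only [coneLen] at ih ⊢
    rw [show N + 1 + 1 = N + 2 from rfl]
    omega

theorem coneLen_step {J : Ideal A} (hJ : J ≤ maximalIdeal A) {l : A} (hl : l ∈ maximalIdeal A)
    {N : ℕ} (hsup : ∀ z ∈ maximalIdeal A ^ (N + 1),
      l * z ∈ coneRel J (N + 2) → z ∈ coneRel J (N + 1)) :
    coneLen (J ⊔ Ideal.span {l}) (N + 1) + coneLen J N = coneLen J (N + 1) := by
  set m := maximalIdeal A
  have hJ' : J ⊔ Ideal.span {l} ≤ m :=
    sup_le hJ ((Ideal.span_singleton_le_iff_mem _).2 hl)
  set I := m ^ (N + 1)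
  set B := coneRel J (N + 1)
  set B1 := coneRel J (N + 2)
  set B' := coneRel (J ⊔ Ideal.span {l}) (N + 2)
  have hB' : B' = B1 ⊔ Ideal.span {l} * I := by
    simp only [B', B1, I, coneRel]
    rw [Ideal.sup_mul, ← sup_assoc]
  have hmul : ∀ x ∈ B, l * x ∈ B1 := by
    intro x hx
    have h := Ideal.mul_mem_mul (show l ∈ m ^ 1 by rwa [pow_one]) hx
    have h2 := pow_mul_coneRel_le J 1 (N + 1) h
    rwa [show 1 + (N + 1) = N + 2 by omega] at h2
  let g : A ⧸ B →ₗ[A] A ⧸ B1 :=
    B.liftQ ((Submodule.mkQ B1).comp (LinearMap.mulLeft A l)) fun x hx => by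
      rw [LinearMap.mem_ker, LinearMap.comp_apply, Submodule.mkQ_apply,
        Submodule.Quotient.mk_eq_zero]
      exact hmul x hx
  have hrange : Submodule.map g (Submodule.map B.mkQ I) = Submodule.map B1.mkQ B' := by
    rw [← Submodule.map_comp, Submodule.liftQ_mkQ, hB', Submodule.map_sup,
      show Submodule.map B1.mkQ B1 = ⊥ by simp, bot_sup_eq, Submodule.map_comp]
    congr 1
    ext x
    simp [Ideal.mem_span_singleton_mul, Submodule.mem_map, eq_comm]
  have hinj : Function.Injective (g.domRestrict (Submodule.map B.mkQ I)) := by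
    rw [← LinearMap.ker_eq_bot, LinearMap.ker_eq_bot']
    rintro ⟨_, z, hz, rfl⟩ hz0
    refine Subtype.ext ((Submodule.Quotient.mk_eq_zero B).2 (hsup z hz ?_))
    exact (Submodule.Quotient.mk_eq_zero B1).1 hz0
  have heq : Module.length A (Submodule.map B.mkQ I) = Module.length A (Submodule.map B1.mkQ B') := by
    rw [← hrange]
    refine (LinearEquiv.ofInjective _ hinj).length_eq.trans ?_
    rw [LinearMap.range_domRestrict]
  have hBI : B ≤ I := coneRel_le hJ N
  have hB1B' : B1 ≤ B' := hB' ▸ le_sup_left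
  have e1 := length_quotient_eq_add hBI
  have e2 := length_quotient_eq_add hB1B'
  have hpB : m ^ (N + 2) ≤ B := pow_le_coneRel J N
  have hpB1 : m ^ (N + 3) ≤ B1 := pow_le_coneRel J (N + 1)
  rw [← coe_qlen hpB, ← coe_qlen (r := N + 1) (le_refl I)] at e1
  rw [← coe_qlen hpB1, ← coe_qlen (hpB1.trans hB1B'), ← heq] at e2
  have hfin : Module.length A (Submodule.map B.mkQ I) ≠ ⊤ := by
    intro h
    rw [h, top_add] at e1
    exact ENat.natCast_ne_top _ e1
  lift Module.length A (Submodule.map B.mkQ I) to ℕ using hfin with t ht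
  have f1 : qlen B = t + qlen I := by exact_mod_cast e1
  have f2 : qlen B1 = t + qlen B' := by exact_mod_cast e2
  have h3 : qlen (m ^ (N + 2)) ≤ qlen B' :=
    qlen_mono (hpB1.trans hB1B') (coneRel_le hJ' (N + 1))
  simp only [coneLen, B, B1, B', I, m, show N + 1 + 1 = N + 2 from rfl] at f1 f2 h3 ⊢
  omega

/-- From the growth of the Hilbert-Samuel function, a reduction generated by `dimNat` elements. -/
theorem exists_reduction_strong [Infinite (ResidueField A)] :
    ∃ (y : Fin (dimNat A) → A) (r : ℕ), Ideal.span (Set.range y) ≤ maximalIdeal A ∧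
      maximalIdeal A ^ (r + 1) ≤ Ideal.span (Set.range y) * maximalIdeal A ^ r := by
  set m := maximalIdeal A
  set d := dimNat A
  obtain ⟨C₀, hC₀⟩ := exists_qlen_pow_le (A := A)
  have step : ∀ (J : Ideal A), J ≤ m → ∀ (e C N₀ : ℕ),
      (∀ N, ∑ i ∈ Finset.Ico N₀ N, coneLen J i ≤ C * (N + 1) ^ e) →
      ∃ l ∈ m, ∃ N₁, (∀ N, N₁ ≤ N → coneLen J N ≤ coneLen J (N + 1)) ∧
        (∀ N, N₁ ≤ N → coneLen (J ⊔ Ideal.span {l}) (N + 1) + coneLen J N = coneLen J (N + 1)) := by
    intro J hJ e C N₀ _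
    obtain ⟨l, hl, N₁, hN₁⟩ := exists_superficial J
    refine ⟨l, hl, N₁, fun N hN => ?_, fun N hN => coneLen_step hJ hl (hN₁ N hN)⟩
    have := coneLen_step hJ hl (hN₁ N hN)
    omega
  have mono : ∀ (J : Ideal A) (N₁ : ℕ), (∀ N, N₁ ≤ N → coneLen J N ≤ coneLen J (N + 1)) →
      ∀ N k, N₁ ≤ N → coneLen J N ≤ coneLen J (N + k) := by
    intro J N₁ h N k hN
    induction k with
    | zero => rfl
    | succ k ih => exact ih.trans (h (N + k) (by omega))
  have key : ∀ j, j ≤ d → ∃ y : Fin j → A, Ideal.span (Set.range y) ≤ m ∧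
      ∃ C N₀, ∀ N, ∑ i ∈ Finset.Ico N₀ N, coneLen (Ideal.span (Set.range y)) i ≤
        C * (N + 1) ^ (d - j) := by
    intro j
    induction j with
    | zero =>
      intro _
      refine ⟨Fin.elim0, by simp, C₀ * 2 ^ d, 0, fun N => ?_⟩
      rw [← Finset.range_eq_Ico]
      refine (sum_coneLen_le (by simp) N).trans ((hC₀ (N + 1)).trans ?_)
      rw [tsub_zero, mul_assoc, ← mul_pow]
      exact Nat.mul_le_mul_left _ (Nat.pow_le_pow_left (by omega) d)
    | succ j ih =>
      intro hj
      obtain ⟨y, hy, C, N₀, hC⟩ := ih (by omega)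
      obtain ⟨l, hl, N₁, hmono, hstep⟩ := step _ hy _ _ _ hC
      set J := Ideal.span (Set.range y)
      have hspan : Ideal.span (Set.range (Fin.snoc y l : Fin (j + 1) → A)) = J ⊔ Ideal.span {l} := by
        rw [Fin.range_snoc, Ideal.span_insert, sup_comm]
      refine ⟨Fin.snoc y l, by rw [hspan]; exact sup_le hy ((Ideal.span_singleton_le_iff_mem _).2 hl),
        ?_⟩
      rw [hspan]
      set e := d - (j + 1) with he
      have hde : d - j = e + 1 := by omega
      rw [hde] at hC
      set M := max N₀ N₁ + 1 with hM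
      have hbd : ∀ N, M ≤ N → coneLen J N ≤ C * 2 ^ (e + 2) * (N + 1) ^ e := by
        intro N hN
        have h1 : ∑ _i ∈ Finset.Ico N (2 * N), coneLen J N ≤
            ∑ i ∈ Finset.Ico N₀ (2 * N), coneLen J i := by
          refine le_trans (Finset.sum_le_sum fun i hi => ?_) (Finset.sum_le_sum_of_subset_of_nonneg
            (Finset.Ico_subset_Ico_left (by omega)) fun _ _ _ => Nat.zero_le _)
          obtain ⟨hi1, -⟩ := Finset.mem_Ico.1 hi
          have := mono J N₁ hmono N (i - N) (by omega)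
          rwa [show N + (i - N) = i by omega] at this
        rw [Finset.sum_const, Nat.card_Ico, smul_eq_mul, show 2 * N - N = N by omega] at h1
        refine Nat.le_of_mul_le_mul_left (h1.trans ((hC _).trans ?_)) (by omega : 0 < N)
        calc C * (2 * N + 1) ^ (e + 1) ≤ C * (2 * (N + 1)) ^ (e + 1) :=
              Nat.mul_le_mul_left _ (Nat.pow_le_pow_left (by omega) _)
          _ = C * 2 ^ (e + 1) * (N + 1) ^ e * (N + 1) := by rw [mul_pow]; ring
          _ ≤ C * 2 ^ (e + 1) * (N + 1) ^ e * (2 * N) := Nat.mul_le_mul_left _ (by omega)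
          _ = N * (C * 2 ^ (e + 2) * (N + 1) ^ e) := by ring
      refine ⟨C * 2 ^ (e + 2), M + 1, fun N => ?_⟩
      have htel : ∀ k, ∑ i ∈ Finset.Ico (M + 1) (M + 1 + k), coneLen (J ⊔ Ideal.span {l}) i +
          coneLen J M = coneLen J (M + k) := by
        intro k
        induction k with
        | zero => simp
        | succ k ihk =>
          rw [← add_assoc, Finset.sum_Ico_succ_top (by omega)]
          have := hstep (M + k) (by omega)
          rw [show M + k + 1 = M + 1 + k by omega] at this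
          rw [show M + (k + 1) = M + 1 + k by omega]
          omega
      rcases le_total N (M + 1) with hN | hN
      · rw [Finset.Ico_eq_empty (by omega), Finset.sum_empty]; exact Nat.zero_le _
      obtain ⟨k, rfl⟩ : ∃ k, N = M + 1 + k := ⟨N - (M + 1), by omega⟩
      refine le_trans (le_trans (Nat.le_add_right _ _) (htel k).le) ((hbd _ (by omega)).trans ?_)
      exact Nat.mul_le_mul_left _ (Nat.pow_le_pow_left (by omega) _)
  obtain ⟨y, hy, C, N₀, hC⟩ := key d le_rfl
  obtain ⟨l, -, N₁, hmono, -⟩ := step _ hy _ _ _ hC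
  set J := Ideal.span (Set.range y)
  set N := max N₀ N₁
  have h0 : coneLen J N = 0 := by
    by_contra hne
    have h1 : ∑ _i ∈ Finset.Ico N (N + C + 1), 1 ≤
        ∑ i ∈ Finset.Ico N₀ (N + C + 1), coneLen J i := by
      refine le_trans (Finset.sum_le_sum fun i hi => ?_) (Finset.sum_le_sum_of_subset_of_nonneg
        (Finset.Ico_subset_Ico_left (le_max_left _ _)) fun _ _ _ => Nat.zero_le _)
      obtain ⟨hi1, -⟩ := Finset.mem_Ico.1 hi
      have := mono J N₁ hmono N (i - N) (le_max_right _ _)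
      rw [show N + (i - N) = i by omega] at this
      omega
    have := h1.trans (hC _)
    simp at this
    omega
  have hpB : m ^ (N + 2) ≤ coneRel J (N + 1) := pow_le_coneRel J N
  have hle : m ^ (N + 1) ≤ coneRel J (N + 1) := by
    have e1 := length_quotient_eq_add (coneRel_le hy N)
    rw [← coe_qlen hpB, ← coe_qlen (r := N + 1) (le_refl (m ^ (N + 1)))] at e1
    have h2 : Module.length A (Submodule.map (coneRel J (N + 1)).mkQ (m ^ (N + 1))) = 0 := by
      have h3 : qlen (coneRel J (N + 1)) ≤ qlen (m ^ (N + 1)) := by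
        simp only [coneLen, m] at h0 ⊢; omega
      have hfin : Module.length A (Submodule.map (coneRel J (N + 1)).mkQ (m ^ (N + 1))) ≠ ⊤ := by
        intro h
        rw [h, top_add] at e1
        exact ENat.natCast_ne_top _ e1
      lift Module.length A (Submodule.map (coneRel J (N + 1)).mkQ (m ^ (N + 1))) to ℕ
        using hfin with t ht
      rw [show Module.length A (Submodule.map (coneRel J (N + 1)).mkQ
        (maximalIdeal A ^ (N + 1))) = (t : ℕ∞) from ht.symm] at e1
      have : qlen (coneRel J (N + 1)) = t + qlen (m ^ (N + 1)) := by exact_mod_cast e1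
      exact_mod_cast (by omega : t = 0)
    intro x hx
    have hsub := Module.length_eq_zero_iff.1 h2
    have := hsub.elim ⟨_, Submodule.mem_map_of_mem hx⟩ 0
    exact (Submodule.Quotient.mk_eq_zero _).1 (congrArg Subtype.val this)
  have hnak : m ^ (N + 1) ≤ J * m ^ N := by
    refine Submodule.le_of_le_smul_of_le_jacobson_bot (I := m) (IsNoetherian.noetherian _)
      (IsLocalRing.maximalIdeal_le_jacobson ⊥) ?_
    rw [smul_eq_mul, ← pow_succ']
    exact hle.trans (le_of_eq (sup_comm _ _))
  exact ⟨y, N, hy, hnak⟩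

/-- A reduction, in the form of a containment of powers. -/
theorem exists_reduction [Infinite (ResidueField A)] :
    ∃ (y : Fin (dimNat A) → A) (r : ℕ), Ideal.span (Set.range y) ≤ maximalIdeal A ∧
      ∀ N, maximalIdeal A ^ (N + r) ≤ Ideal.span (Set.range y) ^ N := by
  obtain ⟨y, N, hy, hnak⟩ := exists_reduction_strong (A := A)
  set J := Ideal.span (Set.range y)
  set m := maximalIdeal A
  refine ⟨y, N, hy, fun M => ?_⟩
  suffices ∀ M, m ^ (M + N) ≤ J ^ M * m ^ N from (this M).trans Ideal.mul_le_left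
  intro M
  induction M with
  | zero => simp
  | succ M ih =>
    calc m ^ (M + 1 + N) = m ^ (M + N) * m := by rw [← pow_succ]; congr 1; omega
      _ ≤ J ^ M * m ^ N * m := Ideal.mul_mono_left ih
      _ = J ^ M * m ^ (N + 1) := by rw [mul_assoc, ← pow_succ]
      _ ≤ J ^ M * (J * m ^ N) := Ideal.mul_mono_right hnak
      _ = J ^ (M + 1) * m ^ N := by rw [← mul_assoc, ← pow_succ]

end Vale.Agent.P202
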