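import Vale.Agent.P202.RingSide.Complete

/-!
# P202 RingSide: bounds on the normalised Hilbert-Samuel function

`limsup hsSeq` is at most the colength of any parameter ideal; `liminf hsSeq` is at least the
colength of a minimal reduction over which the ring is flat as a module over power series.
-/

noncomputable section

namespace Vale.Agent.P202

open IsLocalRing Filter Topology
open scoped ENNReal

/-- The number of monomials of degree `< N` in `d` variables. -/
def monCount (d N : ℕ) : ℕ := ∑ j ∈ Finset.range N, d.multichoose j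

theorem factorial_mul_monCount (d n : ℕ) :
    d.factorial * monCount d (n + 1) = (n + d).descFactorial d := by
  rw [monCount, Nat.sum_range_multichoose, Nat.descFactorial_eq_factorial_mul_choose]

theorem factorial_mul_monCount_le (d N : ℕ) : d.factorial * monCount d N ≤ (N + d) ^ d := by
  rcases N with _ | n
  · simp [monCount]
  rw [factorial_mul_monCount]
  exact (Nat.descFactorial_le_pow _ _).trans (Nat.pow_le_pow_left (by omega) _)

theorem pow_le_factorial_mul_monCount (d n : ℕ) :
    (n + 1) ^ d ≤ d.factorial * monCount d (n + 1) := by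
  rw [factorial_mul_monCount]
  have h := Nat.pow_sub_le_descFactorial (n + d) d
  rwa [show n + d + 1 - d = n + 1 by omega] at h

section Upper

variable {A : Type*} [CommRing A]

theorem length_quotient_span_pow_le {d : ℕ} (x : Fin d → A) (N : ℕ) :
    Module.length A (A ⧸ Ideal.span (Set.range x) ^ N) ≤
      (monCount d N : ℕ∞) * Module.length A (A ⧸ Ideal.span (Set.range x)) := by
  classical
  set J := Ideal.span (Set.range x) with hJ
  induction N with
  | zero => simp [monCount]
  | succ n ih =>
    rw [length_quotient_eq_add (Ideal.pow_le_pow_right n.le_succ), monCount,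
      Finset.sum_range_succ, Nat.cast_add, add_mul, add_comm]
    refine add_le_add ih ?_
    let mon : Sym (Fin d) n → A := fun s => ((s : Multiset (Fin d)).map x).prod
    have hmon : ∀ s, mon s ∈ J ^ n := by
      intro s
      have h : ∀ m : Multiset (Fin d), (m.map x).prod ∈ J ^ Multiset.card m := by
        intro m
        induction m using Multiset.induction_on with
        | empty => simp
        | cons a m ih =>
          rw [Multiset.map_cons, Multiset.prod_cons, Multiset.card_cons, pow_succ']
          exact Ideal.mul_mem_mul (Ideal.subset_span (Set.mem_range_self a)) ih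
      have := h (s : Multiset (Fin d))
      rwa [Sym.card_coe] at this
    let S : Finset A := Finset.univ.image mon
    have hS : J ^ n ≤ Ideal.span (S : Set A) := by
      rw [hJ, Ideal.span, Submodule.span_pow, Submodule.span_le]
      intro a ha
      obtain ⟨f, rfl⟩ := Set.mem_pow.1 ha
      choose φ hφ using fun i => (f i).2
      refine Submodule.subset_span (Finset.mem_image.2
        ⟨⟨((List.ofFn φ : List (Fin d)) : Multiset (Fin d)), by simp⟩, Finset.mem_univ _, ?_⟩)
      simp [mon, List.map_ofFn, Function.comp_def, hφ]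
    refine (length_map_mkQ_le (B := J ^ (n + 1)) (J := J) S (le_sup_of_le_left hS)
      fun a ha c hc => ?_).trans (mul_le_mul' (Nat.cast_le.2 ?_) le_rfl)
    · obtain ⟨s, -, rfl⟩ := Finset.mem_image.1 ha
      rw [pow_succ']
      exact Ideal.mul_mem_mul hc (hmon s)
    · refine Finset.card_image_le.trans ?_
      rw [Finset.card_univ, Sym.card_sym_eq_multichoose, Fintype.card_fin]

end Upper

section Limits

theorem tendsto_add_pow_div_pow (c d : ℕ) :
    Tendsto (fun N : ℕ => ((N + c : ℕ) : ℝ≥0∞) ^ d / (N : ℝ≥0∞) ^ d) atTop (𝓝 1) := by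
  have h : Tendsto (fun N : ℕ => (((N + c : ℕ) : ℝ) / N) ^ d) atTop (𝓝 1) := by
    have h' : Tendsto (fun N : ℕ => 1 + (c : ℝ) / N) atTop (𝓝 1) := by
      simpa using (tendsto_const_div_atTop_nhds_zero_nat (c : ℝ)).const_add 1
    refine (h'.congr' ?_).pow d |> fun h => by simpa using h
    filter_upwards [eventually_gt_atTop 0] with N hN
    have : (N : ℝ) ≠ 0 := by positivity
    field_simp
  have h' := (ENNReal.tendsto_ofReal h)
  rw [ENNReal.ofReal_one] at h'
  refine h'.congr' ?_
  filter_upwards [eventually_gt_atTop 0] with N hN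
  rw [div_pow, ENNReal.ofReal_div_of_pos (by positivity),
    ENNReal.ofReal_pow (by positivity), ENNReal.ofReal_pow (by positivity), ENNReal.ofReal_natCast,
    ENNReal.ofReal_natCast]

theorem tendsto_pow_div_add_pow (c d : ℕ) :
    Tendsto (fun N : ℕ => (N : ℝ≥0∞) ^ d / ((N + c : ℕ) : ℝ≥0∞) ^ d) atTop (𝓝 1) := by
  have h := tendsto_inv_iff.2 (tendsto_add_pow_div_pow c d)
  rw [inv_one] at h
  refine h.congr' ?_
  filter_upwards [eventually_gt_atTop 0] with N hN
  exact ENNReal.inv_div (Or.inl (ENNReal.pow_ne_top (ENNReal.natCast_ne_top N)))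
    (Or.inl (pow_ne_zero d (by exact_mod_cast hN.ne')))

end Limits

/-- The normalised Hilbert-Samuel function is asymptotically at most the colength of any ideal
generated by `dimNat` elements and primary to the maximal ideal. -/
theorem limsup_hsSeq_le {A : Type*} [CommRing A] [IsNoetherianRing A] [IsLocalRing A]
    (x : Fin (dimNat A) → A) (hx : Ideal.span (Set.range x) ≤ maximalIdeal A) {r : ℕ}
    (hr : maximalIdeal A ^ r ≤ Ideal.span (Set.range x)) :
    limsup (hsSeq A) atTop ≤ (qlen (Ideal.span (Set.range x)) : ℝ≥0∞) := by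
  set J := Ideal.span (Set.range x)
  set e := qlen J
  have hb : ∀ N : ℕ, hsSeq A N ≤ (e : ℝ≥0∞) * (((N + (dimNat A) : ℕ) : ℝ≥0∞) ^ (dimNat A) / (N : ℝ≥0∞) ^ (dimNat A)) := by
    intro N
    have h1 : Module.length A (A ⧸ maximalIdeal A ^ N) ≤ ((monCount (dimNat A) N * e : ℕ) : ℕ∞) := by
      refine (length_quotient_mono (Ideal.pow_right_mono hx N)).trans ?_
      rw [Nat.cast_mul, show (e : ℕ∞) = _ from coe_qlen hr]
      exact length_quotient_span_pow_le x N
    rw [hsSeq, ← mul_div_assoc]
    refine ENNReal.div_le_div_right ?_ _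
    calc ((dimNat A).factorial : ℝ≥0∞) * ((Module.length A (A ⧸ maximalIdeal A ^ N) : ℕ∞) : ℝ≥0∞)
        ≤ ((dimNat A).factorial : ℝ≥0∞) * (((monCount (dimNat A) N * e : ℕ) : ℕ∞) : ℝ≥0∞) :=
          mul_le_mul' le_rfl (ENat.toENNReal_le.2 h1)
      _ = (((dimNat A).factorial * monCount (dimNat A) N : ℕ) : ℝ≥0∞) * e := by
          simp only [ENat.toENNReal_coe]; push_cast; ring
      _ ≤ ((N + (dimNat A) : ℕ) : ℝ≥0∞) ^ (dimNat A) * e :=
          mul_le_mul' (by exact_mod_cast factorial_mul_monCount_le (dimNat A) N) le_rfl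
      _ = _ := mul_comm _ _
  refine (limsup_le_limsup (Eventually.of_forall hb)).trans_eq ?_
  have h := ENNReal.Tendsto.const_mul (tendsto_add_pow_div_pow (dimNat A) (dimNat A)) (Or.inl one_ne_zero)
    (a := (e : ℝ≥0∞))
  rw [mul_one] at h
  exact h.limsup_eq

section Lower

variable {k : Type*} [Field k] {d : ℕ}

theorem coeff_eq_zero_of_mem_maximalIdeal_pow {n : ℕ} {F : MvPowerSeries (Fin d) k}
    (hF : F ∈ maximalIdeal (MvPowerSeries (Fin d) k) ^ n) :
    ∀ t : Fin d →₀ ℕ, t.degree < n → MvPowerSeries.coeff t F = 0 := by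
  classical
  induction n generalizing F with
  | zero => simp
  | succ n ih =>
    rw [pow_succ] at hF
    refine Submodule.mul_induction_on hF (fun G hG H hH t ht => ?_)
      (fun G H hG hH t ht => by rw [map_add, hG t ht, hH t ht, add_zero])
    rw [MvPowerSeries.coeff_mul]
    refine Finset.sum_eq_zero fun uv huv => ?_
    rw [Finset.HasAntidiagonal.mem_antidiagonal] at huv
    rw [← huv, map_add] at ht
    by_cases hu : uv.1.degree < n
    · rw [ih hG _ hu, zero_mul]
    · have hv : uv.2 = 0 := (Finsupp.degree_eq_zero_iff _).1 (by omega)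
      have h0 : MvPowerSeries.constantCoeff H = 0 := by
        by_contra h
        exact (mem_maximalIdeal H).1 hH (MvPowerSeries.isUnit_iff_constantCoeff.2 (IsUnit.mk0 _ h))
      rw [hv, MvPowerSeries.coeff_zero_eq_constantCoeff_apply, h0, mul_zero]

/-- There are at least `monCount d N` dimensions below degree `N` in a power series ring. -/
theorem monCount_le_length (N : ℕ) :
    (monCount d N : ℕ∞) ≤ Module.length (MvPowerSeries (Fin d) k)
      (MvPowerSeries (Fin d) k ⧸ maximalIdeal (MvPowerSeries (Fin d) k) ^ N) := by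
  classical
  set P := MvPowerSeries (Fin d) k
  let ι := Σ j : Fin N, Sym (Fin d) (j : ℕ)
  let τ : ι → (Fin d →₀ ℕ) := fun i => Multiset.toFinsupp (i.2 : Multiset (Fin d))
  have hdeg : ∀ i : ι, (τ i).degree = (i.1 : ℕ) := fun i => by
    have h := Multiset.toFinsupp_sum_eq (i.2 : Multiset (Fin d))
    rw [Sym.card_coe] at h
    exact h
  have hτ : Function.Injective τ := by
    rintro ⟨a, s⟩ ⟨b, t⟩ h
    have hab : a = b := Fin.ext (by rw [← hdeg ⟨a, s⟩, ← hdeg ⟨b, t⟩, h])
    subst hab
    exact Sigma.ext rfl (heq_of_eq (Sym.coe_injective (Multiset.toFinsupp.injective h)))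
  let T : P →ₗ[k] (ι → k) := LinearMap.pi fun i => MvPowerSeries.coeff (τ i)
  let T' : (P ⧸ (maximalIdeal P ^ N).restrictScalars k) →ₗ[k] (ι → k) :=
    Submodule.liftQ _ T fun F hF => by
      rw [LinearMap.mem_ker]
      funext i
      exact coeff_eq_zero_of_mem_maximalIdeal_pow hF _ (by rw [hdeg]; exact i.1.2)
  have hT : Function.Surjective T' := by
    intro v
    let F : P := fun t => ∑ i : ι, if τ i = t then v i else 0
    refine ⟨Submodule.Quotient.mk F, funext fun i => ?_⟩
    show (∑ j : ι, if τ j = τ i then v j else 0) = v i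
    simp only [hτ.eq_iff]
    exact Finset.sum_ite_eq' Finset.univ i v |>.trans (by simp)
  have h1 : Module.length k (ι → k) = (monCount d N : ℕ∞) := by
    rw [Module.length_pi, Module.length_eq_one k k, ENat.card_eq_coe_fintype_card, Fintype.card_sigma,
      Finset.sum_congr rfl fun j _ => Sym.card_sym_eq_multichoose (Fin d) _, Fintype.card_fin,
      Fin.sum_univ_eq_sum_range (fun j => d.multichoose j), ← monCount]
    simp
  have h2 : Module.length k (ResidueField P) = 1 := by
    rw [Module.length_eq_of_surjective (R := ResidueField P)]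
    · exact Module.length_eq_one _ _
    · intro a
      obtain ⟨F, rfl⟩ := residue_surjective a
      refine ⟨MvPowerSeries.constantCoeff F, ?_⟩
      rw [IsScalarTower.algebraMap_apply k P (ResidueField P), eq_comm, ← sub_eq_zero,
        ResidueField.algebraMap_eq, ← map_sub, residue_eq_zero_iff, maximalIdeal_mvPowerSeries]
      exact sub_C_constantCoeff_mem_span_X F
  rw [← mul_one (Module.length P _), ← h2, ← length_field_eq_mul, ← h1]
  exact Module.length_le_of_surjective T' hT

variable {S : Type*} [CommRing S] [IsLocalRing S]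

theorem monCount_mul_le_length (φ : MvPowerSeries (Fin d) k →+* S) (hflat : φ.Flat)
    (hX : ∀ i, φ (MvPowerSeries.X i) ∈ maximalIdeal S) (N : ℕ) :
    (monCount d N : ℕ∞) *
        Module.length S (S ⧸ Ideal.span (Set.range fun i => φ (MvPowerSeries.X i))) ≤
      Module.length S (S ⧸ Ideal.span (Set.range fun i => φ (MvPowerSeries.X i)) ^ N) := by
  set P := MvPowerSeries (Fin d) k
  let := φ.toAlgebra
  have : Module.Flat P S := hflat
  have hm : (maximalIdeal P).map (algebraMap P S) =
      Ideal.span (Set.range fun i => φ (MvPowerSeries.X i)) := by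
    rw [maximalIdeal_mvPowerSeries, Ideal.map_span, ← Set.range_comp]
    rfl
  have hloc : IsLocalHom (algebraMap P S) := by
    refine ((local_hom_TFAE (algebraMap P S)).out 0 2).2 ?_
    rw [hm, Ideal.span_le]
    rintro _ ⟨i, rfl⟩
    exact hX i
  rw [← hm, ← Ideal.map_pow,
    (Algebra.TensorProduct.quotIdealMapEquivTensorQuot S (maximalIdeal P ^ N)).toLinearEquiv.length_eq,
    IsLocalRing.length_baseChange P S]
  exact mul_le_mul' (monCount_le_length N) le_rfl

/-- The normalised Hilbert-Samuel function is asymptotically at least the colength of a reduction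
of the maximal ideal along which the ring is flat over power series. -/
theorem le_liminf_hsSeq {S : Type*} [CommRing S] [IsNoetherianRing S] [IsLocalRing S]
    (φ : MvPowerSeries (Fin (dimNat S)) k →+* S) (hflat : φ.Flat)
    (hX : ∀ i, φ (MvPowerSeries.X i) ∈ maximalIdeal S) {r : ℕ}
    (hr : ∀ N, maximalIdeal S ^ (N + r) ≤
      Ideal.span (Set.range fun i => φ (MvPowerSeries.X i)) ^ N) :
    (qlen (Ideal.span (Set.range fun i => φ (MvPowerSeries.X i))) : ℝ≥0∞) ≤
      liminf (hsSeq S) atTop := by
  set J := Ideal.span (Set.range fun i => φ (MvPowerSeries.X i))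
  set e := qlen J
  have hJ : (e : ℕ∞) = Module.length S (S ⧸ J) :=
    coe_qlen (I := J) (r := 1 + r) (by simpa using hr 1)
  have hb : ∀ N : ℕ, 0 < N → (e : ℝ≥0∞) * ((N : ℝ≥0∞) ^ (dimNat S) / ((N + r : ℕ) : ℝ≥0∞) ^ (dimNat S)) ≤
      hsSeq S (N + r) := by
    intro N hN
    obtain ⟨n, rfl⟩ : ∃ n, N = n + 1 := ⟨N - 1, by omega⟩
    have h1 : ((monCount (dimNat S) (n + 1) * e : ℕ) : ℕ∞) ≤
        Module.length S (S ⧸ maximalIdeal S ^ (n + 1 + r)) := by
      refine le_trans ?_ (length_quotient_mono (hr (n + 1)))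
      rw [Nat.cast_mul, hJ]
      exact monCount_mul_le_length φ hflat hX (n + 1)
    rw [hsSeq, ← mul_div_assoc]
    refine ENNReal.div_le_div_right ?_ _
    calc (e : ℝ≥0∞) * ((n + 1 : ℕ) : ℝ≥0∞) ^ (dimNat S)
        ≤ (e : ℝ≥0∞) * (((dimNat S).factorial * monCount (dimNat S) (n + 1) : ℕ) : ℝ≥0∞) :=
          mul_le_mul' le_rfl (by exact_mod_cast pow_le_factorial_mul_monCount (dimNat S) n)
      _ = ((dimNat S).factorial : ℝ≥0∞) * (((monCount (dimNat S) (n + 1) * e : ℕ) : ℕ∞) : ℝ≥0∞) := by
          simp only [ENat.toENNReal_coe]; push_cast; ring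
      _ ≤ _ := mul_le_mul' le_rfl (ENat.toENNReal_le.2 h1)
  have h := ENNReal.Tendsto.const_mul (tendsto_pow_div_add_pow r (dimNat S)) (Or.inl one_ne_zero)
    (a := (e : ℝ≥0∞))
  rw [mul_one] at h
  rw [← liminf_nat_add (hsSeq S) r, ← h.liminf_eq]
  exact liminf_le_liminf (eventually_atTop.2 ⟨1, fun N hN => hb N hN⟩)

end Lower

end Vale.Agent.P202
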